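import Vale.Agent.Lib.P174.SingleEq

namespace Vale.Agent.Results.P174.SingleEqUPP

open Vale.Agent.Lib.P174

universe u

/-- Let `π : G → Γ` be a homomorphism with kernel `N` into a group with unique products (for
instance a left-orderable group). If `N` satisfies Howie's conjecture and a single nonsingular
equation `w` over `G` has a solution `b` in `Γ` after its coefficients are pushed along `π`, then
`w` is solvable over `G`. -/
theorem result :
    ∀ (G Γ : Type u) [Group G] [Group Γ] [UniqueProds Γ] (N : Subgroup G) (π : G →* Γ),
      (∀ g, π g = 1 ↔ g ∈ N) → HowieGroup N →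
      ∀ (n : ℕ) (w : Fin 1 → Monoid.Coprod G (FreeGroup (Fin n))) (b : Fin n → Γ),
        evalHom π b (w 0) = 1 →
        ((exponentMatrix w).map (Int.cast : ℤ → ℚ)).rank = 1 → SolvableOver w :=
  fun _ _ _ _ _ N π hπ hN _ w b hb hr => single_equation N π hπ hN w b hb hr

end Vale.Agent.Results.P174.SingleEqUPP
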