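import Vale.Agent.Results.P174.ExtResP
import Vale.Agent.Results.P174.SingleEqUPP

namespace Vale.Agent.Results.P174.A00_master

open Vale.Agent.Lib.P174

universe u

/-- (a) Mod `p` form: if every system over `N` of rank `m` mod `p` is solvable over `N` and `G / N`
is residually a finite `p`-group, then the same holds for `G`. (b) If `N` satisfies Howie's
conjecture and `G / N` is residually a finite `p`-group for infinitely many primes `p`, then `G`
satisfies Howie's conjecture. (c) Abelian groups satisfy Howie's conjecture. (d) Let `π : G → Γ` be a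
homomorphism with kernel `N` into a group with unique products. If `N` satisfies Howie's conjecture
and a single nonsingular equation `w` over `G` has a solution `b` in `Γ` after its coefficients are
pushed along `π`, then `w` is solvable over `G`. -/
theorem result :
    (∀ (p : ℕ) [Fact p.Prime] (G : Type u) [Group G] (N : Subgroup G) [N.Normal],
      HowieModGroup p N → ResiduallyP p (G ⧸ N) → HowieModGroup p G) ∧
    (∀ (G : Type u) [Group G] (N : Subgroup G) [N.Normal],
      HowieGroup N → (∀ B : ℕ, ∃ p : ℕ, B < p ∧ p.Prime ∧ ResiduallyP p (G ⧸ N)) →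
        HowieGroup G) ∧
    (∀ (A : Type u) [CommGroup A], HowieGroup A) ∧
    (∀ (G Γ : Type u) [Group G] [Group Γ] [UniqueProds Γ] (N : Subgroup G) (π : G →* Γ),
      (∀ g, π g = 1 ↔ g ∈ N) → HowieGroup N →
      ∀ (n : ℕ) (w : Fin 1 → Monoid.Coprod G (FreeGroup (Fin n))) (b : Fin n → Γ),
        evalHom π b (w 0) = 1 →
        ((exponentMatrix w).map (Int.cast : ℤ → ℚ)).rank = 1 → SolvableOver w) :=
  ⟨Vale.Agent.Results.P174.ExtResP.result.1, Vale.Agent.Results.P174.ExtResP.result.2.1,
    Vale.Agent.Results.P174.ExtResP.result.2.2, Vale.Agent.Results.P174.SingleEqUPP.result⟩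

end Vale.Agent.Results.P174.A00_master
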