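import Vale.Agent.Lib.P174.Global

namespace Vale.Agent.Results.P174.ExtResP

open Vale.Agent.Lib.P174

universe u

/-- Closure of the class of groups satisfying Howie's conjecture under extensions with residually
`p` quotient. (a) Mod `p` form: if every system over `N` of rank `m` mod `p` is solvable over `N`
and `G / N` is residually a finite `p`-group, then the same holds for `G`. (b) If `N` satisfies
Howie's conjecture and `G / N` is residually a finite `p`-group for infinitely many primes `p`,
then `G` satisfies Howie's conjecture. (c) Abelian groups satisfy Howie's conjecture. -/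
theorem result :
    (∀ (p : ℕ) [Fact p.Prime] (G : Type u) [Group G] (N : Subgroup G) [N.Normal],
      HowieModGroup p N → ResiduallyP p (G ⧸ N) → HowieModGroup p G) ∧
    (∀ (G : Type u) [Group G] (N : Subgroup G) [N.Normal],
      HowieGroup N → (∀ B : ℕ, ∃ p : ℕ, B < p ∧ p.Prime ∧ ResiduallyP p (G ⧸ N)) →
        HowieGroup G) ∧
    (∀ (A : Type u) [CommGroup A], HowieGroup A) :=
  ⟨fun p _ _ _ N _ hN hQ => howieMod_of_residually p N hN hQ,
   fun _ _ N _ hN hQ => howie_of_residually N hN hQ,
   fun A _ => howie_comm A⟩

end Vale.Agent.Results.P174.ExtResP
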